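import Crest.Agent.Lib.RuledCover.Local

/-!
# Grid cells in a frame and their volume
-/

open scoped RealInnerProductSpace ENNReal
open Set Metric MeasureTheory

namespace Crest.Agent.RuledCover

/-- A half open grid cell. -/
def cell (C S : ℝ) (q : E2) (δ : ℝ) (m n : ℤ) : Set E2 :=
  {x | inner ℝ (x - q) (fr₁ C S) ∈ Ico (δ * m) (δ * (m + 1)) ∧
       inner ℝ (x - q) (fr₂ C S) ∈ Ico (δ * n) (δ * (n + 1))}

theorem measurableSet_cell (C S : ℝ) (q : E2) (δ : ℝ) (m n : ℤ) :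
    MeasurableSet (cell C S q δ m n) := by
  have h1 : Continuous fun x : E2 => inner ℝ (x - q) (fr₁ C S) := by fun_prop
  have h2 : Continuous fun x : E2 => inner ℝ (x - q) (fr₂ C S) := by fun_prop
  exact (measurableSet_Ico.preimage h1.measurable).inter (measurableSet_Ico.preimage h2.measurable)

/-- The rotation to frame coordinates. -/
noncomputable def frameMap (C S : ℝ) : E2 →ₗ[ℝ] E2 where
  toFun x := !₂[inner ℝ x (fr₁ C S), inner ℝ x (fr₂ C S)]
  map_add' x y := by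
    apply E2.ext' <;> simp [inner_add_left]
  map_smul' r x := by
    apply E2.ext' <;> simp [inner_smul_left]

theorem frameMap_zero (C S : ℝ) (x : E2) : frameMap C S x 0 = inner ℝ x (fr₁ C S) := by
  simp [frameMap]

theorem frameMap_one (C S : ℝ) (x : E2) : frameMap C S x 1 = inner ℝ x (fr₂ C S) := by
  simp [frameMap]

theorem det_frameMap {C S : ℝ} (hCS : C ^ 2 + S ^ 2 = 1) : LinearMap.det (frameMap C S) = 1 := by
  rw [det_eq, frameMap_zero, frameMap_zero, frameMap_one, frameMap_one]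
  simp only [E2.inner_eq, fr₁_zero, fr₁_one, fr₂_zero, fr₂_one, e0_zero, e0_one, e1_zero, e1_one]
  nlinarith

theorem volume_box (a b l : ℝ) (hl : 0 ≤ l) :
    volume {y : E2 | y 0 ∈ Ico a (a + l) ∧ y 1 ∈ Ico b (b + l)} = ENNReal.ofReal (l ^ 2) := by
  have h : {y : E2 | y 0 ∈ Ico a (a + l) ∧ y 1 ∈ Ico b (b + l)} =
      (fun y : E2 => WithLp.ofLp y) ⁻¹' (Set.pi univ fun i => Ico (![a, b] i) (![a + l, b + l] i)) := by
    ext y
    simp [Fin.forall_fin_two]
  rw [h, (PiLp.volume_preserving_ofLp (Fin 2)).measure_preimage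
    (MeasurableSet.univ_pi fun i => measurableSet_Ico).nullMeasurableSet,
    Real.volume_pi_Ico, Fin.prod_univ_two]
  simp only [Matrix.cons_val_zero, Matrix.cons_val_one, Matrix.cons_val_fin_one]
  rw [add_sub_cancel_left, add_sub_cancel_left, ← ENNReal.ofReal_mul hl, sq]

theorem volume_cell {C S : ℝ} (hCS : C ^ 2 + S ^ 2 = 1) (q : E2) {δ : ℝ} (hδ : 0 < δ) (m n : ℤ) :
    volume (cell C S q δ m n) = ENNReal.ofReal (δ ^ 2) := by
  have h : cell C S q δ m n = frameMap C S ⁻¹'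
      {y : E2 | y 0 ∈ Ico (inner ℝ q (fr₁ C S) + δ * m) (inner ℝ q (fr₁ C S) + δ * m + δ) ∧
        y 1 ∈ Ico (inner ℝ q (fr₂ C S) + δ * n) (inner ℝ q (fr₂ C S) + δ * n + δ)} := by
    ext x
    simp only [cell, Set.mem_ofPred_eq, mem_preimage, frameMap_zero, frameMap_one, mem_Ico,
      inner_sub_left]
    constructor
    · rintro ⟨⟨h1, h2⟩, h3, h4⟩
      refine ⟨⟨by linarith, by linarith⟩, by linarith, by linarith⟩
    · rintro ⟨⟨h1, h2⟩, h3, h4⟩
      refine ⟨⟨by linarith, by linarith⟩, by linarith, by linarith⟩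
  rw [h, Measure.addHaar_preimage_linearMap (μ := volume) (f := frameMap C S)
    (by rw [det_frameMap hCS]; exact one_ne_zero), det_frameMap hCS, volume_box _ _ _ hδ.le]
  simp

/-- A point of a cell is close to the corner of the cell. -/
theorem cell_dist {C S : ℝ} (hCS : C ^ 2 + S ^ 2 = 1) (q : E2) {δ : ℝ} (hδ : 0 < δ) {m n : ℤ}
    {x : E2} (hx : x ∈ cell C S q δ m n) : ‖x - gridPt C S q δ m n‖ ≤ 2 * δ := by
  obtain ⟨⟨h1, h2⟩, h3, h4⟩ := hx
  have hdec := frame_decomp hCS (x - q)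
  have hdiff : x - gridPt C S q δ m n =
      (inner ℝ (x - q) (fr₁ C S) - δ * m) • fr₁ C S +
      (inner ℝ (x - q) (fr₂ C S) - δ * n) • fr₂ C S := by
    have hx' : x = q + (x - q) := by abel
    rw [gridPt]
    nth_rewrite 1 [hx']
    nth_rewrite 1 [hdec]
    module
  have hb := norm_le_of_sq_eq (n := ‖x - gridPt C S q δ m n‖)
    (x := inner ℝ (x - q) (fr₁ C S) - δ * m) (y := inner ℝ (x - q) (fr₂ C S) - δ * n)
    (by rw [hdiff, norm_frame_combo hCS])
  have h5 : |inner ℝ (x - q) (fr₁ C S) - δ * m| ≤ δ := by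
    rw [abs_le]; constructor <;> nlinarith
  have h6 : |inner ℝ (x - q) (fr₂ C S) - δ * n| ≤ δ := by
    rw [abs_le]; constructor <;> nlinarith
  linarith

/-- Distinct cells are disjoint. -/
theorem cell_disjoint (C S : ℝ) (q : E2) {δ : ℝ} (hδ : 0 < δ) {m n m' n' : ℤ}
    (hne : (m, n) ≠ (m', n')) : Disjoint (cell C S q δ m n) (cell C S q δ m' n') := by
  rw [Set.disjoint_left]
  rintro x ⟨⟨h1, h2⟩, h3, h4⟩ ⟨⟨h5, h6⟩, h7, h8⟩
  apply hne
  have key : ∀ (a b : ℤ) (v : ℝ), δ * a ≤ v → v < δ * (a + 1) → δ * b ≤ v → v < δ * (b + 1) → a = b := by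
    intro a b v h1 h2 h3 h4
    have h9 : (a : ℝ) < b + 1 := by
      have : δ * a < δ * (b + 1) := lt_of_le_of_lt h1 h4
      exact lt_of_mul_lt_mul_left this hδ.le
    have h10 : (b : ℝ) < a + 1 := by
      have : δ * b < δ * (a + 1) := lt_of_le_of_lt h3 h2
      exact lt_of_mul_lt_mul_left this hδ.le
    have h11 : a < b + 1 := by exact_mod_cast h9
    have h12 : b < a + 1 := by exact_mod_cast h10
    omega
  rw [key m m' _ h1 h2 h5 h6, key n n' _ h3 h4 h7 h8]

end Crest.Agent.RuledCover
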