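import Mathlib

/-!
# Orthonormal frames of the Euclidean plane and trace-free matrices
-/

open scoped RealInnerProductSpace

namespace Crest.Agent.RuledCover

/-- The Euclidean plane. -/
abbrev E2 : Type := EuclideanSpace ℝ (Fin 2)

theorem E2.inner_eq (u v : E2) : inner ℝ u v = u 0 * v 0 + u 1 * v 1 := by
  simp [PiLp.inner_apply, Fin.sum_univ_two]
  ring

theorem E2.norm_sq_eq (u : E2) : ‖u‖ ^ 2 = u 0 ^ 2 + u 1 ^ 2 := by
  rw [EuclideanSpace.real_norm_sq_eq]; simp [Fin.sum_univ_two]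

theorem E2.ext' {u v : E2} (h0 : u 0 = v 0) (h1 : u 1 = v 1) : u = v := by
  ext i; fin_cases i <;> simpa

/-- First vector of the frame with cosine `c` and sine `s`. -/
noncomputable def fr₁ (c s : ℝ) : E2 := !₂[c, s]
/-- Second vector of the frame with cosine `c` and sine `s`. -/
noncomputable def fr₂ (c s : ℝ) : E2 := !₂[-s, c]

@[simp] theorem fr₁_zero (c s : ℝ) : fr₁ c s 0 = c := by simp [fr₁]
@[simp] theorem fr₁_one (c s : ℝ) : fr₁ c s 1 = s := by simp [fr₁]
@[simp] theorem fr₂_zero (c s : ℝ) : fr₂ c s 0 = -s := by simp [fr₂]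
@[simp] theorem fr₂_one (c s : ℝ) : fr₂ c s 1 = c := by simp [fr₂]

theorem norm_fr₁ {c s : ℝ} (h : c ^ 2 + s ^ 2 = 1) : ‖fr₁ c s‖ = 1 := by
  have : ‖fr₁ c s‖ ^ 2 = 1 := by rw [E2.norm_sq_eq]; simpa using h
  nlinarith [norm_nonneg (fr₁ c s)]

theorem norm_fr₂ {c s : ℝ} (h : c ^ 2 + s ^ 2 = 1) : ‖fr₂ c s‖ = 1 := by
  have : ‖fr₂ c s‖ ^ 2 = 1 := by rw [E2.norm_sq_eq]; simp; linarith
  nlinarith [norm_nonneg (fr₂ c s)]

theorem inner_fr₁_fr₂ (c s : ℝ) : inner ℝ (fr₁ c s) (fr₂ c s) = 0 := by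
  rw [E2.inner_eq]; simp; ring

theorem inner_fr₁_fr₁ {c s : ℝ} (h : c ^ 2 + s ^ 2 = 1) : inner ℝ (fr₁ c s) (fr₁ c s) = 1 := by
  rw [E2.inner_eq]; simp; nlinarith

theorem inner_fr₂_fr₂ {c s : ℝ} (h : c ^ 2 + s ^ 2 = 1) : inner ℝ (fr₂ c s) (fr₂ c s) = 1 := by
  rw [E2.inner_eq]; simp; nlinarith

/-- Decomposition of a vector in the frame. -/
theorem frame_decomp {c s : ℝ} (h : c ^ 2 + s ^ 2 = 1) (u : E2) :
    u = (inner ℝ u (fr₁ c s)) • fr₁ c s + (inner ℝ u (fr₂ c s)) • fr₂ c s := by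
  apply E2.ext'
  · simp [E2.inner_eq]
    have : u 0 = u 0 * (c ^ 2 + s ^ 2) := by rw [h]; ring
    nlinarith
  · simp [E2.inner_eq]
    have : u 1 = u 1 * (c ^ 2 + s ^ 2) := by rw [h]; ring
    nlinarith

/-- Norm in a frame. -/
theorem norm_frame_combo {c s : ℝ} (h : c ^ 2 + s ^ 2 = 1) (x y : ℝ) :
    ‖x • fr₁ c s + y • fr₂ c s‖ ^ 2 = x ^ 2 + y ^ 2 := by
  rw [E2.norm_sq_eq]
  simp only [PiLp.add_apply, PiLp.smul_apply, fr₁_zero, fr₂_zero, fr₁_one, fr₂_one, smul_eq_mul]
  have : x ^ 2 + y ^ 2 = (x ^ 2 + y ^ 2) * (c ^ 2 + s ^ 2) := by rw [h]; ring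
  nlinarith

theorem inner_frame_combo₁ {c s : ℝ} (h : c ^ 2 + s ^ 2 = 1) (x y : ℝ) :
    inner ℝ (x • fr₁ c s + y • fr₂ c s) (fr₁ c s) = x := by
  rw [inner_add_left, inner_smul_left, inner_smul_left, inner_fr₁_fr₁ h,
    real_inner_comm, inner_fr₁_fr₂]
  simp

theorem inner_frame_combo₂ {c s : ℝ} (h : c ^ 2 + s ^ 2 = 1) (x y : ℝ) :
    inner ℝ (x • fr₁ c s + y • fr₂ c s) (fr₂ c s) = y := by
  rw [inner_add_left, inner_smul_left, inner_smul_left, inner_fr₂_fr₂ h, inner_fr₁_fr₂]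
  simp

/-- Standard basis vector. -/
noncomputable def e0 : E2 := !₂[1, 0]
/-- Standard basis vector. -/
noncomputable def e1 : E2 := !₂[0, 1]

@[simp] theorem e0_zero : e0 0 = 1 := by simp [e0]
@[simp] theorem e0_one : e0 1 = 0 := by simp [e0]
@[simp] theorem e1_zero : e1 0 = 0 := by simp [e1]
@[simp] theorem e1_one : e1 1 = 1 := by simp [e1]

theorem vec_decomp (u : E2) : u = u 0 • e0 + u 1 • e1 := by
  apply E2.ext' <;> simp

/-- Trace of a linear map of the plane in coordinates. -/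
theorem trace_eq (A : E2 →ₗ[ℝ] E2) :
    LinearMap.trace ℝ _ A = A e0 0 + A e1 1 := by
  rw [LinearMap.trace_eq_matrix_trace ℝ (EuclideanSpace.basisFun (Fin 2) ℝ).toBasis,
    Matrix.trace_fin_two]
  simp only [LinearMap.toMatrix_apply]
  have h0 : (EuclideanSpace.basisFun (Fin 2) ℝ).toBasis 0 = e0 := by
    simp only [OrthonormalBasis.coe_toBasis, EuclideanSpace.basisFun_apply]
    apply E2.ext' <;> simp
  have h1 : (EuclideanSpace.basisFun (Fin 2) ℝ).toBasis 1 = e1 := by
    simp only [OrthonormalBasis.coe_toBasis, EuclideanSpace.basisFun_apply]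
    apply E2.ext' <;> simp
  rw [h0, h1]
  simp

/-- Determinant of a linear map of the plane in coordinates. -/
theorem det_eq (A : E2 →ₗ[ℝ] E2) :
    LinearMap.det A = A e0 0 * A e1 1 - A e1 0 * A e0 1 := by
  rw [← LinearMap.det_toMatrix (EuclideanSpace.basisFun (Fin 2) ℝ).toBasis, Matrix.det_fin_two]
  simp only [LinearMap.toMatrix_apply]
  have h0 : (EuclideanSpace.basisFun (Fin 2) ℝ).toBasis 0 = e0 := by
    simp only [OrthonormalBasis.coe_toBasis, EuclideanSpace.basisFun_apply]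
    apply E2.ext' <;> simp
  have h1 : (EuclideanSpace.basisFun (Fin 2) ℝ).toBasis 1 = e1 := by
    simp only [OrthonormalBasis.coe_toBasis, EuclideanSpace.basisFun_apply]
    apply E2.ext' <;> simp
  rw [h0, h1]
  simp

/-- Algebra behind `exists_frame`. -/
theorem frame_alg (C S a b c d : ℝ) (hCS : C ^ 2 + S ^ 2 = 1) (hd : d = -a)
    (hθ : C * (C * a + S * b) + S * (C * c + S * d) = 0) :
    C * a + S * b = (-S * (C * a + S * b) + C * (C * c + S * d)) * (-S) ∧
    C * c + S * d = (-S * (C * a + S * b) + C * (C * c + S * d)) * C ∧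
    -S * a + C * b = (C * (-S * a + C * b) + S * (-S * c + C * d)) * C ∧
    -S * c + C * d = (C * (-S * a + C * b) + S * (-S * c + C * d)) * S ∧
    (C * (-S * a + C * b) + S * (-S * c + C * d)) * (-S * (C * a + S * b) + C * (C * c + S * d))
      = -(a * d - b * c) := by
  subst hd
  have h2 : -S * (-S * a + C * b) + C * (-S * c + C * -a) = 0 := by
    linear_combination -hθ
  refine ⟨?_, ?_, ?_, ?_, ?_⟩
  · linear_combination C * hθ - (C * a + S * b) * hCS
  · linear_combination S * hθ - (C * c + S * -a) * hCS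
  · linear_combination -S * h2 - (-S * a + C * b) * hCS
  · linear_combination C * h2 - (-S * c + C * -a) * hCS
  · have key : (C * (C * a + S * b) + S * (C * c + S * -a)) * (-S * (-S * a + C * b) + C * (-S * c + C * -a))
        - (C * (-S * a + C * b) + S * (-S * c + C * -a)) * (-S * (C * a + S * b) + C * (C * c + S * -a))
        = (C ^ 2 + S ^ 2) ^ 2 * (a * -a - b * c) := by ring
    rw [hCS, hθ] at key
    linarith

/-- A trace free linear map has a frame in which its diagonal vanishes. -/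
theorem exists_frame (A : E2 →ₗ[ℝ] E2) (htr : LinearMap.trace ℝ _ A = 0) :
    ∃ c s β γ : ℝ, c ^ 2 + s ^ 2 = 1 ∧ A (fr₁ c s) = γ • fr₂ c s ∧ A (fr₂ c s) = β • fr₁ c s ∧
      β * γ = - LinearMap.det A := by
  have htr' := trace_eq A ▸ htr
  have hdet := det_eq A
  set a := A e0 0 with ha
  set c' := A e0 1 with hc'
  set b := A e1 0 with hb
  set d := A e1 1 with hd
  have hA : ∀ x y : ℝ, A (x • e0 + y • e1) = !₂[x * a + y * b, x * c' + y * d] := by
    intro x y
    apply E2.ext'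
    · simp [a, b]
    · simp [c', d]
  -- the intermediate value theorem
  let F : ℝ → ℝ := fun θ =>
    Real.cos θ * (Real.cos θ * a + Real.sin θ * b) + Real.sin θ * (Real.cos θ * c' + Real.sin θ * d)
  have hFc : Continuous F := by fun_prop
  have hF0 : F 0 = a := by simp [F]
  have hF1 : F (Real.pi / 2) = d := by simp [F]
  have hd' : d = -a := by linarith
  obtain ⟨θ, -, hθ⟩ : ∃ θ ∈ Set.uIcc 0 (Real.pi / 2), F θ = 0 := by
    have := intermediate_value_uIcc (a := 0) (b := Real.pi / 2) (f := F) hFc.continuousOn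
    apply this
    rw [hF0, hF1, hd']
    rcases le_total 0 a with h | h
    · rw [Set.uIcc_of_ge (by linarith)]; exact ⟨by linarith, h⟩
    · rw [Set.uIcc_of_le (by linarith)]; exact ⟨h, by linarith⟩
  set C := Real.cos θ with hC
  set S := Real.sin θ with hS
  have hCS : C ^ 2 + S ^ 2 = 1 := Real.cos_sq_add_sin_sq θ
  have hθ' : C * (C * a + S * b) + S * (C * c' + S * d) = 0 := hθ
  obtain ⟨e1', e2', e3', e4', e5'⟩ := frame_alg C S a b c' d hCS hd' hθ'
  have h1 : fr₁ C S = C • e0 + S • e1 := by apply E2.ext' <;> simp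
  have h2 : fr₂ C S = (-S) • e0 + C • e1 := by apply E2.ext' <;> simp
  refine ⟨C, S, (C * (-S * a + C * b) + S * (-S * c' + C * d)),
    -S * (C * a + S * b) + C * (C * c' + S * d), hCS, ?_, ?_, ?_⟩
  · rw [h1, hA]
    apply E2.ext'
    · simp only [PiLp.smul_apply, fr₂_zero, smul_eq_mul]
      simp only [Fin.isValue, PiLp.toLp_apply, Matrix.cons_val_zero]
      linarith
    · simp only [PiLp.smul_apply, fr₂_one, smul_eq_mul]
      simp only [Fin.isValue, PiLp.toLp_apply, Matrix.cons_val_one, Matrix.cons_val_fin_one]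
      linarith
  · rw [h2, hA]
    apply E2.ext'
    · simp only [PiLp.smul_apply, fr₁_zero, smul_eq_mul]
      simp only [Fin.isValue, PiLp.toLp_apply, Matrix.cons_val_zero]
      linarith
    · simp only [PiLp.smul_apply, fr₁_one, smul_eq_mul]
      simp only [Fin.isValue, PiLp.toLp_apply, Matrix.cons_val_one, Matrix.cons_val_fin_one]
      linarith
  · rw [hdet]
    linarith

end Crest.Agent.RuledCover
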