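import Mathlib

/-!
# The lattice covering lemma

If `t₁ t₂ ≥ 0` and `t₁ t₂ < 1` then the unit square translated by the lattice spanned by
`(1, t₁)` and `(t₂, 1)` covers the plane.
-/

namespace Crest.Agent.RuledCover

/-- The case `t₁, t₂ ≥ 0`. -/
theorem lattice_cover_nonneg (t₁ t₂ : ℝ) (h₁ : 0 ≤ t₁) (h₂ : 0 ≤ t₂) (h : t₁ * t₂ < 1) (X Y : ℝ) :
    ∃ m n : ℤ, (m : ℝ) + n * t₂ ≤ X ∧ X ≤ m + n * t₂ + 1 ∧
      m * t₁ + n ≤ Y ∧ Y ≤ m * t₁ + n + 1 := by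
  classical
  set g : ℝ := 1 - t₁ * t₂ with hg
  have hgpos : 0 < g := by rw [hg]; linarith
  -- the floor function
  let m : ℤ → ℤ := fun n => ⌊X - n * t₂⌋
  have hm_le : ∀ n : ℤ, (m n : ℝ) ≤ X - n * t₂ := fun n => Int.floor_le _
  have hm_lt : ∀ n : ℤ, X - n * t₂ < m n + 1 := fun n => Int.lt_floor_add_one _
  have hm_anti : ∀ n : ℤ, m (n + 1) ≤ m n := by
    intro n
    apply Int.floor_le_floor
    have : ((n + 1 : ℤ) : ℝ) * t₂ = n * t₂ + t₂ := by push_cast; ring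
    linarith
  let ℓ : ℤ → ℝ := fun n => (m n : ℝ) * t₁ + n
  have hℓ_up : ∀ n : ℤ, ℓ n ≤ t₁ * X + n * g := by
    intro n
    have := mul_le_mul_of_nonneg_right (hm_le n) h₁
    simp only [ℓ, hg]
    nlinarith
  have hℓ_down : ∀ n : ℤ, t₁ * X - t₁ + n * g ≤ ℓ n := by
    intro n
    have := mul_le_mul_of_nonneg_right (hm_lt n).le h₁
    simp only [ℓ, hg]
    nlinarith
  -- `S = {n | ℓ n ≤ Y}` has a greatest element
  have hbdd : ∃ b : ℤ, ∀ z : ℤ, ℓ z ≤ Y → z ≤ b := by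
    refine ⟨⌈(Y - t₁ * X + t₁) / g⌉, fun z hz => ?_⟩
    have h1 := hℓ_down z
    have h2 : (z : ℝ) * g ≤ Y - t₁ * X + t₁ := by linarith
    have h3 : (z : ℝ) ≤ (Y - t₁ * X + t₁) / g := by
      rw [le_div_iff₀ hgpos]; exact h2
    exact_mod_cast h3.trans (Int.le_ceil _)
  have hinh : ∃ z : ℤ, ℓ z ≤ Y := by
    refine ⟨⌊(Y - t₁ * X) / g⌋, ?_⟩
    have h1 := hℓ_up ⌊(Y - t₁ * X) / g⌋
    have h2 : ((⌊(Y - t₁ * X) / g⌋ : ℤ) : ℝ) ≤ (Y - t₁ * X) / g := Int.floor_le _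
    have h3 : ((⌊(Y - t₁ * X) / g⌋ : ℤ) : ℝ) * g ≤ Y - t₁ * X := by
      rwa [le_div_iff₀ hgpos] at h2
    linarith
  obtain ⟨n, hn, hmax⟩ := Int.exists_greatest_of_bdd hbdd hinh
  refine ⟨m n, n, ?_, ?_, hn, ?_⟩
  · have := hm_le n; linarith
  · have := hm_lt n; linarith
  · -- `ℓ (n+1) > Y`
    have hn1 : Y < ℓ (n + 1) := by
      by_contra hcon
      have := hmax (n + 1) (not_lt.mp hcon)
      omega
    have h2 : (m (n + 1) : ℝ) ≤ m n := by exact_mod_cast hm_anti n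
    have h3 := mul_le_mul_of_nonneg_right h2 h₁
    simp only [ℓ] at hn1 hn
    push_cast at hn1
    linarith

/-- The lattice covering lemma. -/
theorem lattice_cover (t₁ t₂ : ℝ) (h0 : 0 ≤ t₁ * t₂) (h : t₁ * t₂ < 1) (X Y : ℝ) :
    ∃ m n : ℤ, (m : ℝ) + n * t₂ ≤ X ∧ X ≤ m + n * t₂ + 1 ∧
      m * t₁ + n ≤ Y ∧ Y ≤ m * t₁ + n + 1 := by
  rcases mul_nonneg_iff.mp h0 with ⟨h1, h2⟩ | ⟨h1, h2⟩
  · exact lattice_cover_nonneg t₁ t₂ h1 h2 h X Y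
  · obtain ⟨m', n, h3, h4, h5, h6⟩ :=
      lattice_cover_nonneg (-t₁) (-t₂) (by linarith) (by linarith) (by nlinarith) (1 - X) Y
    refine ⟨-m', n, ?_, ?_, ?_, ?_⟩
    · push_cast; nlinarith
    · push_cast; nlinarith
    · push_cast; nlinarith
    · push_cast; nlinarith

end Crest.Agent.RuledCover
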