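import Crest.Agent.Lib.RuledCover.Lattice
import Crest.Agent.Lib.RuledCover.Frame

/-!
# The local covering lemma
-/

open scoped RealInnerProductSpace
open Set Metric

namespace Crest.Agent.RuledCover

/-- Grid points in a frame. -/
noncomputable def gridPt (C S : ℝ) (q : E2) (δ : ℝ) (m n : ℤ) : E2 :=
  q + (δ * m) • fr₁ C S + (δ * n) • fr₂ C S

/-- The constant governing the size of the search window. -/
noncomputable def windowConst (L β γ : ℝ) : ℝ :=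
  (2 + L * |β| + L * |γ|) / (1 - L ^ 2 * (β * γ))

theorem windowConst_nonneg {L β γ : ℝ} (hL : 0 < L) (h : L ^ 2 * (β * γ) < 1) :
    0 ≤ windowConst L β γ := by
  unfold windowConst
  apply div_nonneg
  · positivity
  · linarith

theorem windowConst_pos {L β γ : ℝ} (hL : 0 < L) (h : L ^ 2 * (β * γ) < 1) :
    0 < windowConst L β γ := by
  unfold windowConst
  apply div_pos
  · positivity
  · linarith

/-- Scalar estimates behind the local covering lemma: solving the `2 × 2` system. -/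
theorem scalar_solve {t₁ t₂ u₁ u₂ g b₁ b₂ : ℝ} (hg : 0 < g) (hg2 : g ≤ 1 - t₁ * t₂)
    (hb₁ : |t₂| ≤ b₁) (hb₂ : |t₁| ≤ b₂)
    (h₁0 : 0 ≤ u₁ + t₂ * u₂) (h₁1 : u₁ + t₂ * u₂ ≤ 1)
    (h₂0 : 0 ≤ t₁ * u₁ + u₂) (h₂1 : t₁ * u₁ + u₂ ≤ 1) :
    g * |u₁| ≤ 1 + b₁ ∧ g * |u₂| ≤ 1 + b₂ := by
  set θ₁ := u₁ + t₂ * u₂ with hθ₁
  set θ₂ := t₁ * u₁ + u₂ with hθ₂
  have hsol₁ : (1 - t₁ * t₂) * u₁ = θ₁ - t₂ * θ₂ := by rw [hθ₁, hθ₂]; ring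
  have hsol₂ : (1 - t₁ * t₂) * u₂ = θ₂ - t₁ * θ₁ := by rw [hθ₁, hθ₂]; ring
  have habs₁ : |θ₁ - t₂ * θ₂| ≤ 1 + b₁ := by
    have h3 : |t₂ * θ₂| ≤ b₁ := by
      rw [abs_mul, abs_of_nonneg h₂0]
      calc |t₂| * θ₂ ≤ b₁ * 1 := mul_le_mul hb₁ h₂1 h₂0 ((abs_nonneg _).trans hb₁)
        _ = b₁ := mul_one _
    have h4 : |θ₁| ≤ 1 := by rw [abs_of_nonneg h₁0]; exact h₁1
    calc |θ₁ - t₂ * θ₂| ≤ |θ₁| + |t₂ * θ₂| := abs_sub _ _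
      _ ≤ _ := by linarith
  have habs₂ : |θ₂ - t₁ * θ₁| ≤ 1 + b₂ := by
    have h3 : |t₁ * θ₁| ≤ b₂ := by
      rw [abs_mul, abs_of_nonneg h₁0]
      calc |t₁| * θ₁ ≤ b₂ * 1 := mul_le_mul hb₂ h₁1 h₁0 ((abs_nonneg _).trans hb₂)
        _ = b₂ := mul_one _
    have h4 : |θ₂| ≤ 1 := by rw [abs_of_nonneg h₂0]; exact h₂1
    calc |θ₂ - t₁ * θ₁| ≤ |θ₂| + |t₁ * θ₁| := abs_sub _ _
      _ ≤ _ := by linarith
  have hpos : 0 < 1 - t₁ * t₂ := lt_of_lt_of_le hg hg2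
  constructor
  · have h5 : |(1 - t₁ * t₂) * u₁| ≤ 1 + b₁ := by rw [hsol₁]; exact habs₁
    rw [abs_mul, abs_of_pos hpos] at h5
    exact (mul_le_mul_of_nonneg_right hg2 (abs_nonneg u₁)).trans h5
  · have h5 : |(1 - t₁ * t₂) * u₂| ≤ 1 + b₂ := by rw [hsol₂]; exact habs₂
    rw [abs_mul, abs_of_pos hpos] at h5
    exact (mul_le_mul_of_nonneg_right hg2 (abs_nonneg u₂)).trans h5

/-- `√(x²+y²) ≤ |x|+|y|`. -/
theorem norm_le_of_sq_eq {n x y : ℝ} (h : n ^ 2 = x ^ 2 + y ^ 2) : n ≤ |x| + |y| := by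
  have h1 : (|x| + |y|) ^ 2 = x ^ 2 + y ^ 2 + 2 * (|x| * |y|) := by
    rw [add_sq, sq_abs, sq_abs]; ring
  have h2 : 0 ≤ |x| * |y| := by positivity
  have h3 : n ^ 2 ≤ (|x| + |y|) ^ 2 := by rw [h, h1]; linarith
  exact le_of_sq_le_sq h3 (by positivity)

/-- The local covering lemma. -/
theorem local_cover (V : E2 → E2) (A : E2 →L[ℝ] E2) {C S β γ : ℝ} (hCS : C ^ 2 + S ^ 2 = 1)
    (hA₁ : A (fr₁ C S) = γ • fr₂ C S) (hA₂ : A (fr₂ C S) = β • fr₁ C S)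
    {L : ℝ} (hL : 0 < L) (h0 : 0 ≤ β * γ) (h1 : L ^ 2 * (β * γ) < 1)
    {κ ω : ℝ} (hκ : 0 < κ) (hω : ω * L * windowConst L β γ ≤ κ) (hω0 : 0 ≤ ω)
    (q : E2) {δ : ℝ} (hδ : 0 < δ) (p : E2) {t : ℝ} (ht : |t| ≤ L)
    (hLip : ∀ m n : ℤ, ‖p - gridPt C S q δ m n‖ ≤ windowConst L β γ * δ →
      ‖V p - V (gridPt C S q δ m n) - A (p - gridPt C S q δ m n)‖ ≤
        ω * ‖p - gridPt C S q δ m n‖) :
    ∃ m n : ℤ, ‖p - gridPt C S q δ m n‖ ≤ windowConst L β γ * δ ∧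
      ∃ x ∈ Icc (0 : ℝ) 1, ∃ y ∈ Icc (0 : ℝ) 1,
        p + t • V p = (gridPt C S q δ m n - (κ * δ) • fr₁ C S - (κ * δ) • fr₂ C S)
          + x • ((δ * (1 + 2 * κ)) • fr₁ C S) + y • ((δ * (1 + 2 * κ)) • fr₂ C S)
          + t • V (gridPt C S q δ m n) := by
  have hδne : δ ≠ 0 := hδ.ne'
  have hgpos : 0 < 1 - L ^ 2 * (β * γ) := by linarith
  have ht2 : t ^ 2 ≤ L ^ 2 := by
    have h3 := abs_nonneg t
    calc t ^ 2 = |t| ^ 2 := (sq_abs t).symm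
      _ ≤ L ^ 2 := by gcongr
  obtain ⟨y₁, hy₁⟩ : ∃ y₁, y₁ = inner ℝ (p - q) (fr₁ C S) / δ := ⟨_, rfl⟩
  obtain ⟨y₂, hy₂⟩ : ∃ y₂, y₂ = inner ℝ (p - q) (fr₂ C S) / δ := ⟨_, rfl⟩
  obtain ⟨t₁, ht₁⟩ : ∃ t₁, t₁ = t * γ := ⟨_, rfl⟩
  obtain ⟨t₂, ht₂⟩ : ∃ t₂, t₂ = t * β := ⟨_, rfl⟩
  have ht12 : t₁ * t₂ = t ^ 2 * (β * γ) := by rw [ht₁, ht₂]; ring
  have ht12_nn : 0 ≤ t₁ * t₂ := by rw [ht12]; positivity
  have ht12_le : t₁ * t₂ ≤ L ^ 2 * (β * γ) := by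
    rw [ht12]; exact mul_le_mul_of_nonneg_right ht2 h0
  have ht12_lt : t₁ * t₂ < 1 := by linarith
  obtain ⟨m, n, hm1, hm2, hn1, hn2⟩ :=
    lattice_cover t₁ t₂ ht12_nn ht12_lt (y₁ + t₂ * y₂) (t₁ * y₁ + y₂)
  obtain ⟨u₁, hu₁⟩ : ∃ u₁, u₁ = y₁ - m := ⟨_, rfl⟩
  obtain ⟨u₂, hu₂⟩ : ∃ u₂, u₂ = y₂ - n := ⟨_, rfl⟩
  have hθ₁0 : 0 ≤ u₁ + t₂ * u₂ := by rw [hu₁, hu₂]; linarith
  have hθ₁1 : u₁ + t₂ * u₂ ≤ 1 := by rw [hu₁, hu₂]; linarith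
  have hθ₂0 : 0 ≤ t₁ * u₁ + u₂ := by rw [hu₁, hu₂]; linarith
  have hθ₂1 : t₁ * u₁ + u₂ ≤ 1 := by rw [hu₁, hu₂]; linarith
  -- position of `p`
  have hdiff : p - gridPt C S q δ m n = (δ * u₁) • fr₁ C S + (δ * u₂) • fr₂ C S := by
    have hdec := frame_decomp hCS (p - q)
    have h11 : inner ℝ (p - q) (fr₁ C S) = δ * y₁ := by rw [hy₁]; field_simp
    have h12 : inner ℝ (p - q) (fr₂ C S) = δ * y₂ := by rw [hy₂]; field_simp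
    rw [h11, h12] at hdec
    have hp : p = q + (δ * y₁) • fr₁ C S + (δ * y₂) • fr₂ C S := by
      calc p = q + (p - q) := by abel
        _ = _ := by rw [hdec]; abel
    rw [gridPt, hu₁, hu₂]
    nth_rewrite 1 [hp]
    module
  -- bounds on `u`
  have hg2 : 1 - L ^ 2 * (β * γ) ≤ 1 - t₁ * t₂ := by linarith
  have hLb : |t₂| ≤ L * |β| := by
    rw [ht₂, abs_mul]; exact mul_le_mul_of_nonneg_right ht (abs_nonneg _)
  have hLg : |t₁| ≤ L * |γ| := by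
    rw [ht₁, abs_mul]; exact mul_le_mul_of_nonneg_right ht (abs_nonneg _)
  obtain ⟨hu₁b, hu₂b⟩ := scalar_solve hgpos hg2 hLb hLg hθ₁0 hθ₁1 hθ₂0 hθ₂1
  have hCstg : windowConst L β γ * (1 - L ^ 2 * (β * γ)) = 2 + L * |β| + L * |γ| := by
    rw [windowConst]; exact div_mul_cancel₀ _ hgpos.ne'
  have hnorm : ‖p - gridPt C S q δ m n‖ ≤ windowConst L β γ * δ := by
    have h6 : ‖p - gridPt C S q δ m n‖ ≤ |δ * u₁| + |δ * u₂| := by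
      apply norm_le_of_sq_eq
      rw [hdiff, norm_frame_combo hCS]
    rw [abs_mul, abs_mul, abs_of_pos hδ] at h6
    have h7 : |u₁| + |u₂| ≤ windowConst L β γ := by
      have h8 : (1 - L ^ 2 * (β * γ)) * (|u₁| + |u₂|) ≤
          (1 - L ^ 2 * (β * γ)) * windowConst L β γ := by
        have : (1 - L ^ 2 * (β * γ)) * windowConst L β γ = 2 + L * |β| + L * |γ| := by
          rw [mul_comm]; exact hCstg
        rw [this, mul_add]; linarith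
      exact le_of_mul_le_mul_left h8 hgpos
    calc ‖p - gridPt C S q δ m n‖ ≤ δ * |u₁| + δ * |u₂| := h6
      _ = (|u₁| + |u₂|) * δ := by ring
      _ ≤ _ := mul_le_mul_of_nonneg_right h7 hδ.le
  refine ⟨m, n, hnorm, ?_⟩
  -- the error term
  obtain ⟨G, hG⟩ : ∃ G, G = gridPt C S q δ m n := ⟨_, rfl⟩
  rw [← hG] at hdiff hnorm ⊢
  have hLip' := hLip m n (by rw [← hG]; exact hnorm)
  rw [← hG] at hLip'
  obtain ⟨E, hE⟩ : ∃ E, E = t • (V p - V G - A (p - G)) := ⟨_, rfl⟩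
  have hEnorm : ‖E‖ ≤ κ * δ := by
    rw [hE, norm_smul, Real.norm_eq_abs]
    calc |t| * ‖V p - V G - A (p - G)‖ ≤ L * (ω * (windowConst L β γ * δ)) := by
          apply mul_le_mul ht (hLip'.trans _) (norm_nonneg _) hL.le
          exact mul_le_mul_of_nonneg_left hnorm hω0
      _ = (ω * L * windowConst L β γ) * δ := by ring
      _ ≤ κ * δ := mul_le_mul_of_nonneg_right hω hδ.le
  have he₁ : ‖fr₁ C S‖ = 1 := norm_fr₁ hCS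
  have he₂ : ‖fr₂ C S‖ = 1 := norm_fr₂ hCS
  obtain ⟨E₁, hE₁⟩ : ∃ E₁, E₁ = inner ℝ E (fr₁ C S) := ⟨_, rfl⟩
  obtain ⟨E₂, hE₂⟩ : ∃ E₂, E₂ = inner ℝ E (fr₂ C S) := ⟨_, rfl⟩
  have hEdec : E = E₁ • fr₁ C S + E₂ • fr₂ C S := by
    rw [hE₁, hE₂]; exact frame_decomp hCS E
  have hE₁b : |E₁| ≤ κ * δ := by
    rw [hE₁]
    calc |inner ℝ E (fr₁ C S)| ≤ ‖E‖ * ‖fr₁ C S‖ := abs_real_inner_le_norm _ _
      _ = ‖E‖ := by rw [he₁, mul_one]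
      _ ≤ _ := hEnorm
  have hE₂b : |E₂| ≤ κ * δ := by
    rw [hE₂]
    calc |inner ℝ E (fr₂ C S)| ≤ ‖E‖ * ‖fr₂ C S‖ := abs_real_inner_le_norm _ _
      _ = ‖E‖ := by rw [he₂, mul_one]
      _ ≤ _ := hEnorm
  have hAdiff : A (p - G) = (δ * u₂ * β) • fr₁ C S + (δ * u₁ * γ) • fr₂ C S := by
    rw [hdiff, map_add, map_smul, map_smul, hA₁, hA₂, smul_smul, smul_smul]
    abel
  have hmain : p + t • V p = G + t • V G +
      ((δ * (u₁ + t₂ * u₂) + E₁) • fr₁ C S + (δ * (t₁ * u₁ + u₂) + E₂) • fr₂ C S) := by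
    have h9 : p + t • V p = G + t • V G + ((p - G) + t • A (p - G) + E) := by
      rw [hE]; module
    rw [h9, hAdiff, hdiff, hEdec, ht₁, ht₂]
    module
  have hκδ : 0 < κ * δ := by positivity
  have h1κ : 0 < 1 + 2 * κ := by linarith
  have hx0 : 0 ≤ (u₁ + t₂ * u₂ + E₁ / δ + κ) / (1 + 2 * κ) := by
    apply div_nonneg _ h1κ.le
    have : -κ ≤ E₁ / δ := by
      rw [le_div_iff₀ hδ]; have := (abs_le.mp hE₁b).1; linarith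
    linarith
  have hx1 : (u₁ + t₂ * u₂ + E₁ / δ + κ) / (1 + 2 * κ) ≤ 1 := by
    rw [div_le_one h1κ]
    have : E₁ / δ ≤ κ := by
      rw [div_le_iff₀ hδ]; have := (abs_le.mp hE₁b).2; linarith
    linarith
  have hy0 : 0 ≤ (t₁ * u₁ + u₂ + E₂ / δ + κ) / (1 + 2 * κ) := by
    apply div_nonneg _ h1κ.le
    have : -κ ≤ E₂ / δ := by
      rw [le_div_iff₀ hδ]; have := (abs_le.mp hE₂b).1; linarith
    linarith
  have hy1 : (t₁ * u₁ + u₂ + E₂ / δ + κ) / (1 + 2 * κ) ≤ 1 := by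
    rw [div_le_one h1κ]
    have : E₂ / δ ≤ κ := by
      rw [div_le_iff₀ hδ]; have := (abs_le.mp hE₂b).2; linarith
    linarith
  refine ⟨_, ⟨hx0, hx1⟩, _, ⟨hy0, hy1⟩, ?_⟩
  rw [hmain]
  have hc1 : (u₁ + t₂ * u₂ + E₁ / δ + κ) / (1 + 2 * κ) * (δ * (1 + 2 * κ)) - κ * δ =
      δ * (u₁ + t₂ * u₂) + E₁ := by field_simp; ring
  have hc2 : (t₁ * u₁ + u₂ + E₂ / δ + κ) / (1 + 2 * κ) * (δ * (1 + 2 * κ)) - κ * δ =
      δ * (t₁ * u₁ + u₂) + E₂ := by field_simp; ring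
  rw [← hc1, ← hc2]
  module

end Crest.Agent.RuledCover
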