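import Crest.Agent.Lib.RuledCover.Patch

/-!
# Covering ruled sets by sheared square cylinders
-/

open scoped RealInnerProductSpace ENNReal Topology
open Set Metric MeasureTheory Filter

namespace Crest.Agent.RuledCover

/-- The density `J(g) = (1 + g₀² + h² g₁²)^(-1/2)`. -/
noncomputable def dens (h : ℝ) (g : E2) : ℝ := 1 / √(1 + (g 0) ^ 2 + h ^ 2 * (g 1) ^ 2)

theorem dens_arg_ge_one (h : ℝ) (g : E2) : 1 ≤ 1 + (g 0) ^ 2 + h ^ 2 * (g 1) ^ 2 := by
  have : 0 ≤ h ^ 2 * (g 1) ^ 2 := by positivity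
  nlinarith [sq_nonneg (g 0)]

theorem dens_nonneg (h : ℝ) (g : E2) : 0 ≤ dens h g := by
  unfold dens; positivity

theorem dens_le_one (h : ℝ) (g : E2) : dens h g ≤ 1 := by
  unfold dens
  rw [div_le_one (Real.sqrt_pos.mpr (by linarith [dens_arg_ge_one h g]))]
  exact Real.one_le_sqrt.mpr (dens_arg_ge_one h g)

theorem continuous_dens (h : ℝ) : Continuous (dens h) := by
  unfold dens
  apply Continuous.div continuous_const
  · have h1 : Continuous fun g : E2 => g 0 := by fun_prop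
    have h2 : Continuous fun g : E2 => g 1 := by fun_prop
    fun_prop
  · intro g
    exact (Real.sqrt_pos.mpr (by linarith [dens_arg_ge_one h g])).ne'

/-- Choice of the small parameters. -/
theorem exists_params {ε Vol : ℝ} (hε : 0 < ε) (hVol : 0 ≤ Vol) :
    ∃ κ η ε₁ : ℝ, 0 < κ ∧ 0 < η ∧ 0 < ε₁ ∧ κ ≤ 1 ∧ η ≤ 1 ∧ ε₁ ≤ 1 ∧ ε₁ ≤ ε / 8 ∧
      η * (Vol + 1) ≤ ε / 8 ∧ 8 * κ * (2 * (Vol + 2)) ≤ ε / 4 := by
  have hQ : 0 < 2 * (Vol + 2) := by linarith
  have hV1 : 0 < Vol + 1 := by linarith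
  refine ⟨min 1 (ε / (32 * (2 * (Vol + 2)))), min 1 (ε / (8 * (Vol + 1))), min 1 (ε / 8),
    by positivity, by positivity, by positivity, min_le_left _ _, min_le_left _ _, min_le_left _ _,
    min_le_right _ _, ?_, ?_⟩
  · calc min 1 (ε / (8 * (Vol + 1))) * (Vol + 1) ≤ (ε / (8 * (Vol + 1))) * (Vol + 1) :=
          mul_le_mul_of_nonneg_right (min_le_right _ _) hV1.le
      _ = ε / 8 := by field_simp
  · calc 8 * min 1 (ε / (32 * (2 * (Vol + 2)))) * (2 * (Vol + 2))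
        ≤ 8 * (ε / (32 * (2 * (Vol + 2)))) * (2 * (Vol + 2)) := by
          gcongr; exact min_le_right _ _
      _ = ε / 4 := by field_simp; ring

/-- The final arithmetic. -/
theorem final_arith {κ η ε₁ ε Vol I Y D₁ : ℝ} (hκ : 0 < κ) (hκ1 : κ ≤ 1) (hη1 : η ≤ 1)
    (hη : 0 < η) (hε₁ : 0 < ε₁) (hε₁1 : ε₁ ≤ 1) (hε₁8 : ε₁ ≤ ε / 8) (hηV : η * (Vol + 1) ≤ ε / 8)
    (hκV : 8 * κ * (2 * (Vol + 2)) ≤ ε / 4) (hVol : 0 ≤ Vol) (hI : I ≤ Vol) (hY0 : 0 ≤ Y)
    (hY : Y ≤ I + D₁ + η * (Vol + D₁)) (hD₁ : D₁ ≤ ε₁) (hD₁0 : 0 ≤ D₁) (hε : 0 < ε) :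
    (1 + 2 * κ) ^ 2 * Y ≤ I + ε := by
  have h1 : η * (Vol + D₁) ≤ η * (Vol + 1) := by
    apply mul_le_mul_of_nonneg_left _ hη.le; linarith
  have h2 : Y ≤ I + ε₁ + ε / 8 := by linarith
  have h3 : Y ≤ 2 * (Vol + 2) := by
    have h4 : η * (Vol + 1) ≤ 1 * (Vol + 1) := by
      apply mul_le_mul_of_nonneg_right hη1; linarith
    linarith
  have h5 : (1 + 2 * κ) ^ 2 ≤ 1 + 8 * κ := by nlinarith
  have h6 : 8 * κ * Y ≤ ε / 4 := by
    calc 8 * κ * Y ≤ 8 * κ * (2 * (Vol + 2)) := by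
          apply mul_le_mul_of_nonneg_left h3; positivity
      _ ≤ _ := hκV
  calc (1 + 2 * κ) ^ 2 * Y ≤ (1 + 8 * κ) * Y := mul_le_mul_of_nonneg_right h5 hY0
    _ = Y + 8 * κ * Y := by ring
    _ ≤ I + ε := by linarith

/-- The bound over one piece. -/
theorem piece_bound {f : E2 → ℝ} (hf0 : ∀ x, 0 ≤ f x) (hf1 : ∀ x, f x ≤ 1)
    {D P : Set E2} {r₀ ρ ρ₁ η δ Cst C S : ℝ} (q : E2) (T : Finset (ℤ × ℤ))
    (hCS : C ^ 2 + S ^ 2 = 1) (hδ : 0 < δ) (hη : 0 < η)
    (hPD : P ⊆ D) (hPc : IsCompact P) (hρ0 : 0 < ρ) (hρr : ρ ≤ r₀)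
    (hK' : IsCompact (cthickening r₀ D))
    (hint : IntegrableOn f (cthickening r₀ D))
    (huc : ∀ x ∈ cthickening r₀ D, ∀ y ∈ cthickening r₀ D, dist x y < ρ₁ → dist (f x) (f y) < η)
    (hδ2 : 2 * δ < ρ₁)
    (hT : ∀ ij ∈ T, ∃ p ∈ P, ‖p - gridPt C S q δ ij.1 ij.2‖ ≤ Cst * δ)
    (hρ : (Cst + 2) * δ ≤ ρ) (hCst : 0 ≤ Cst) :
    ∑ ij ∈ T, δ ^ 2 * f (gridPt C S q δ ij.1 ij.2) ≤
      (∫ x in P, f x) + ((volume (cthickening ρ P)).toReal - (volume P).toReal) +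
        η * (volume (cthickening ρ P)).toReal := by
  have hsub : cthickening ρ P ⊆ cthickening r₀ D :=
    (cthickening_mono hρr P).trans (cthickening_subset_of_subset r₀ hPD)
  have hfin : volume (cthickening ρ P) ≠ ∞ := hPc.cthickening.measure_lt_top.ne
  have hint' : IntegrableOn f (cthickening ρ P) := hint.mono_set hsub
  have hosc : ∀ ij ∈ T, ∀ x ∈ cell C S q δ ij.1 ij.2,
      f (gridPt C S q δ ij.1 ij.2) ≤ f x + η := by
    intro ij hij x hx
    obtain ⟨p, hp, hpd⟩ := hT ij hij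
    have h1 := cell_dist hCS q hδ hx
    have hδ0 : 0 ≤ Cst * δ := by positivity
    have h2 : dist (gridPt C S q δ ij.1 ij.2) p ≤ ρ := by
      rw [dist_comm, dist_eq_norm]
      calc _ ≤ Cst * δ := hpd
        _ ≤ (Cst + 2) * δ := by nlinarith
        _ ≤ ρ := hρ
    have h3 : dist x p ≤ ρ := by
      rw [dist_eq_norm]
      calc ‖x - p‖ = ‖(x - gridPt C S q δ ij.1 ij.2) - (p - gridPt C S q δ ij.1 ij.2)‖ := by
            congr 1; abel
        _ ≤ ‖x - gridPt C S q δ ij.1 ij.2‖ + ‖p - gridPt C S q δ ij.1 ij.2‖ := norm_sub_le _ _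
        _ ≤ 2 * δ + Cst * δ := add_le_add h1 hpd
        _ = (Cst + 2) * δ := by ring
        _ ≤ ρ := hρ
    have hG : gridPt C S q δ ij.1 ij.2 ∈ cthickening r₀ D :=
      hsub (mem_cthickening_of_dist_le _ p ρ P hp h2)
    have hxK : x ∈ cthickening r₀ D := hsub (mem_cthickening_of_dist_le _ p ρ P hp h3)
    have h4 : dist (gridPt C S q δ ij.1 ij.2) x < ρ₁ := by
      rw [dist_comm, dist_eq_norm]; exact lt_of_le_of_lt h1 hδ2
    have h5 := huc _ hG x hxK h4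
    rw [Real.dist_eq] at h5
    have := (abs_lt.mp h5).2
    linarith
  have hmain := sum_le_integral_thick hCS q hδ P f T hT hρ hfin hint' hosc
    (fun x _ => by linarith [hf0 x])
  have hconst : IntegrableOn (fun _ : E2 => η) (cthickening ρ P) := integrableOn_const hfin (by simp)
  have hsplit : ∫ x in cthickening ρ P, (f x + η) =
      (∫ x in cthickening ρ P, f x) + η * (volume (cthickening ρ P)).toReal := by
    rw [integral_add hint' hconst, setIntegral_const, Measure.real, smul_eq_mul, mul_comm η]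
  have hcmp := setIntegral_le_of_subset (f := f) (self_subset_cthickening P)
    hPc.measurableSet isClosed_cthickening.measurableSet hfin hint' hf1
  linarith

/-- The main covering theorem, over an arbitrary finite index type. -/
theorem ruled_cover_fintype (D : Set E2) (hD : IsCompact D) (V : E2 → E2) (U : Set E2)
    (hU : IsOpen U) (hDU : D ⊆ U) (hV : ContDiffOn ℝ 1 V U) (L h : ℝ) (hL : 0 < L)
    (htr : ∀ p ∈ D, LinearMap.trace ℝ _ (fderiv ℝ V p).toLinearMap = 0)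
    (hdet : ∀ p ∈ D, -(L ^ 2)⁻¹ < LinearMap.det (fderiv ℝ V p).toLinearMap ∧
      LinearMap.det (fderiv ℝ V p).toLinearMap ≤ 0)
    (ε : ℝ) (hε : 0 < ε) :
    ∃ (ι : Type) (_ : Fintype ι) (c a b g : ι → E2),
      (∀ i, a i ≠ 0 ∧ ‖b i‖ = ‖a i‖ ∧ inner ℝ (a i) (b i) = 0) ∧
      (∀ p ∈ D, ∀ t : ℝ, |t| ≤ L → ∃ i, ∃ x ∈ Icc (0 : ℝ) 1, ∃ y ∈ Icc (0 : ℝ) 1,
        p + t • V p = c i + x • a i + y • b i + t • g i) ∧
      ∑ i, ‖a i‖ ^ 2 * dens h (g i) ≤ (∫ p in D, dens h (V p)) + ε := by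
  classical
  obtain ⟨f, hf⟩ : ∃ f : E2 → ℝ, f = fun p => dens h (V p) := ⟨_, rfl⟩
  have hf0 : ∀ x, 0 ≤ f x := fun x => by rw [hf]; exact dens_nonneg h _
  have hf1 : ∀ x, f x ≤ 1 := fun x => by rw [hf]; exact dens_le_one h _
  have hfc : ContinuousOn f U := by
    rw [hf]; exact (continuous_dens h).comp_continuousOn hV.continuousOn
  obtain ⟨r₀, hr₀, hr₀U⟩ := hD.exists_cthickening_subset_open hU hDU
  have hK' : IsCompact (cthickening r₀ D) := hD.cthickening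
  have hfK : ContinuousOn f (cthickening r₀ D) := hfc.mono hr₀U
  have hintK : IntegrableOn f (cthickening r₀ D) := hfK.integrableOn_compact hK'
  have hDfin : volume D ≠ ∞ := hD.measure_lt_top.ne
  obtain ⟨Vol, hVoldef⟩ : ∃ Vol, Vol = (volume D).toReal := ⟨_, rfl⟩
  have hVol : 0 ≤ Vol := by rw [hVoldef]; exact ENNReal.toReal_nonneg
  obtain ⟨κ, η, ε₁, hκ, hη, hε₁, hκ1, hη1, hε₁1, hε₁8, hηV, hκV⟩ := exists_params hε hVol
  -- patches
  have hpatch := fun (p : E2) (hp : p ∈ D) =>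
    exists_patch hU hV hL hκ (hDU hp) (htr p hp) (hdet p hp)
  choose! C S β γ r A hCS hA₁ hA₂ h0 h1 hr hballU hLip using hpatch
  obtain ⟨t, ht, hcov⟩ := hD.elim_nhds_subcover (fun p => ball p (r p))
    (fun p hp => ball_mem_nhds p (hr p hp))
  obtain ⟨J, e, -⟩ : ∃ (J : ℕ) (e : Fin J ≃ t), True := ⟨t.card, t.equivFin.symm, trivial⟩
  obtain ⟨P₀, hP₀⟩ : ∃ P₀ : Fin J → E2, P₀ = fun j => (e j).1 := ⟨_, rfl⟩
  have hP₀D : ∀ j, P₀ j ∈ D := fun j => by rw [hP₀]; exact ht _ (e j).2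
  have hcov' : D ⊆ ⋃ j, ball (P₀ j) (r (P₀ j)) := by
    intro x hx
    obtain ⟨p, hp, hxp⟩ := mem_iUnion₂.mp (hcov hx)
    refine mem_iUnion.mpr ⟨e.symm ⟨p, hp⟩, ?_⟩
    simpa [hP₀] using hxp
  obtain ⟨P, E, hPc, hPsub, hEP, hEm, hEd, hEU, hnull⟩ :=
    exists_pieces hD P₀ (fun j => r (P₀ j)) hcov'
  obtain ⟨Cst, hCstdef⟩ : ∃ Cst : Fin J → ℝ,
      Cst = fun j => windowConst L (β (P₀ j)) (γ (P₀ j)) := ⟨_, rfl⟩
  have hCstpos : ∀ j, 0 < Cst j := fun j => by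
    rw [hCstdef]; exact windowConst_pos hL (h1 _ (hP₀D j))
  -- uniform continuity
  have huc := hK'.uniformContinuousOn_of_continuous hfK
  obtain ⟨ρ₁, hρ₁, hρ₁c⟩ := Metric.uniformContinuousOn_iff.mp huc η hη
  -- thickening radius
  have hJ1 : (0 : ℝ) < (J : ℝ) + 1 := by positivity
  have hev : ∀ᶠ ρ in 𝓝 (0 : ℝ), ∀ j, volume (cthickening ρ (P j)) <
      volume (P j) + ENNReal.ofReal (ε₁ / (J + 1)) := by
    rw [Filter.eventually_all]
    intro j
    have hlim := tendsto_measure_cthickening_of_isCompact (μ := volume) (hPc j)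
    exact hlim.eventually_lt_const
      (ENNReal.lt_add_right (hPc j).measure_lt_top.ne (by
        simpa using (by positivity : 0 < ε₁ / (J + 1))))
  obtain ⟨ρ, hρ0, hρr₀, hρev⟩ : ∃ ρ : ℝ, 0 < ρ ∧ ρ ≤ r₀ ∧ ∀ j, volume (cthickening ρ (P j)) <
      volume (P j) + ENNReal.ofReal (ε₁ / (J + 1)) := by
    have h2 : ∀ᶠ ρ in 𝓝[>] (0 : ℝ), ρ ∈ Ioo 0 r₀ := Ioo_mem_nhdsGT hr₀
    obtain ⟨ρ, hρ, hρ2⟩ := (h2.and (hev.filter_mono nhdsWithin_le_nhds)).exists
    exact ⟨ρ, hρ.1, hρ.2.le, hρ2⟩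
  -- mesh size
  obtain ⟨δ, hδ, hδj, hδ2⟩ : ∃ δ : ℝ, 0 < δ ∧ (∀ j, (Cst j + 2) * δ < min ρ (r (P₀ j))) ∧
      2 * δ < ρ₁ := by
    have htend : ∀ a : ℝ, Tendsto (fun δ : ℝ => a * δ) (𝓝 0) (𝓝 0) := by
      intro a
      have : Tendsto (fun δ : ℝ => a * δ) (𝓝 0) (𝓝 (a * 0)) := tendsto_const_nhds.mul tendsto_id
      simpa using this
    have h3 : ∀ j, ∀ᶠ δ in 𝓝[>] (0 : ℝ), (Cst j + 2) * δ < min ρ (r (P₀ j)) := by
      intro j
      exact ((htend _).eventually_lt_const (lt_min hρ0 (hr _ (hP₀D j)))).filter_mono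
        nhdsWithin_le_nhds
    have h4 : ∀ᶠ δ in 𝓝[>] (0 : ℝ), 2 * δ < ρ₁ :=
      ((htend 2).eventually_lt_const hρ₁).filter_mono nhdsWithin_le_nhds
    obtain ⟨δ, hδall, hδ2, hδpos⟩ :=
      ((Filter.eventually_all.mpr h3).and (h4.and self_mem_nhdsWithin)).exists
    exact ⟨δ, hδpos, hδall, hδ2⟩
  -- the grid points
  have hfin : ∀ j, {ij : ℤ × ℤ | ∃ p ∈ P j, ‖p - gridPt (C (P₀ j)) (S (P₀ j)) (P₀ j) δ ij.1 ij.2‖ ≤
      Cst j * δ}.Finite := fun j =>
    finite_window (hCS _ (hP₀D j)) _ hδ (hPc j).isBounded _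
  obtain ⟨T, hT⟩ : ∃ T : Fin J → Finset (ℤ × ℤ), T = fun j => (hfin j).toFinset := ⟨_, rfl⟩
  have hTmem : ∀ j ij, ij ∈ T j ↔
      ∃ p ∈ P j, ‖p - gridPt (C (P₀ j)) (S (P₀ j)) (P₀ j) δ ij.1 ij.2‖ ≤ Cst j * δ := by
    intro j ij
    rw [hT]
    simp only [Set.Finite.mem_toFinset]
    rfl
  -- the data
  obtain ⟨G, hG⟩ : ∃ G : (Σ j : Fin J, {ij // ij ∈ T j}) → E2, G = fun i =>
      gridPt (C (P₀ i.1)) (S (P₀ i.1)) (P₀ i.1) δ i.2.1.1 i.2.1.2 := ⟨_, rfl⟩
  have hnormfr₁ : ∀ j, ‖fr₁ (C (P₀ j)) (S (P₀ j))‖ = 1 := fun j => norm_fr₁ (hCS _ (hP₀D j))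
  have hnormfr₂ : ∀ j, ‖fr₂ (C (P₀ j)) (S (P₀ j))‖ = 1 := fun j => norm_fr₂ (hCS _ (hP₀D j))
  have hside : 0 < δ * (1 + 2 * κ) := by positivity
  refine ⟨Σ j : Fin J, {ij // ij ∈ T j}, inferInstance,
    fun i => G i - (κ * δ) • fr₁ (C (P₀ i.1)) (S (P₀ i.1)) - (κ * δ) • fr₂ (C (P₀ i.1)) (S (P₀ i.1)),
    fun i => (δ * (1 + 2 * κ)) • fr₁ (C (P₀ i.1)) (S (P₀ i.1)),
    fun i => (δ * (1 + 2 * κ)) • fr₂ (C (P₀ i.1)) (S (P₀ i.1)),
    fun i => V (G i), ?_, ?_, ?_⟩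
  · -- the squares
    intro i
    refine ⟨?_, ?_, ?_⟩
    · intro h0'
      have := congrArg norm h0'
      rw [norm_smul, hnormfr₁, norm_zero, mul_one, Real.norm_eq_abs, abs_of_pos hside] at this
      exact hside.ne' this
    · rw [norm_smul, norm_smul, hnormfr₁, hnormfr₂]
    · rw [inner_smul_left, inner_smul_right, inner_fr₁_fr₂]; simp
  · -- the covering
    intro p hp τ hτ
    rw [← hEU] at hp
    obtain ⟨j, hj⟩ := mem_iUnion.mp hp
    have hpP : p ∈ P j := hEP j hj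
    obtain ⟨-, hpb⟩ := hPsub j hpP
    have hq := hP₀D j
    have hrj := hr _ hq
    have hCstj : (Cst j + 2) * δ ≤ r (P₀ j) := (hδj j).le.trans (min_le_right _ _)
    have hCstw : windowConst L (β (P₀ j)) (γ (P₀ j)) = Cst j := by rw [hCstdef]
    obtain ⟨m, n, hnorm, x, hx, y, hy, heq⟩ := local_cover V (A (P₀ j)) (hCS _ hq) (hA₁ _ hq)
      (hA₂ _ hq) hL (h0 _ hq) (h1 _ hq) hκ
      (ω := κ / (L * windowConst L (β (P₀ j)) (γ (P₀ j)))) (by
        have h5 : windowConst L (β (P₀ j)) (γ (P₀ j)) ≠ 0 := by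
          rw [hCstw]; exact (hCstpos j).ne'
        apply le_of_eq
        field_simp) (by
          rw [hCstw]
          have := hCstpos j
          positivity) (P₀ j) hδ p hτ (by
        intro m n hmn
        rw [hCstw] at hmn
        apply hLip _ hq
        · rw [mem_ball]
          have := mem_closedBall.mp hpb
          linarith
        · rw [mem_ball]
          have h6 : dist (gridPt (C (P₀ j)) (S (P₀ j)) (P₀ j) δ m n) p ≤ r (P₀ j) := by
            rw [dist_comm, dist_eq_norm]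
            apply hmn.trans
            nlinarith
          have h7 := dist_triangle (gridPt (C (P₀ j)) (S (P₀ j)) (P₀ j) δ m n) p (P₀ j)
          have := mem_closedBall.mp hpb
          linarith)
    rw [hCstw] at hnorm
    refine ⟨⟨j, ⟨(m, n), (hTmem j (m, n)).mpr ⟨p, hpP, hnorm⟩⟩⟩, x, hx, y, hy, ?_⟩
    simp only [hG]
    exact heq
  · -- the sum
    obtain ⟨Y, hYdef⟩ : ∃ Y : Fin J → ℝ, Y = fun j => ∑ ij ∈ T j,
        δ ^ 2 * f (gridPt (C (P₀ j)) (S (P₀ j)) (P₀ j) δ ij.1 ij.2) := ⟨_, rfl⟩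
    have hterm : ∀ i : (Σ j : Fin J, {ij // ij ∈ T j}),
        ‖(δ * (1 + 2 * κ)) • fr₁ (C (P₀ i.1)) (S (P₀ i.1))‖ ^ 2 * dens h (V (G i)) =
          (1 + 2 * κ) ^ 2 * (δ ^ 2 * f (gridPt (C (P₀ i.1)) (S (P₀ i.1)) (P₀ i.1) δ i.2.1.1 i.2.1.2)) := by
      intro i
      rw [norm_smul, hnormfr₁, mul_one, Real.norm_eq_abs, abs_of_pos hside, hG, hf]
      ring
    have hsum : ∑ i : (Σ j : Fin J, {ij // ij ∈ T j}),
        ‖(δ * (1 + 2 * κ)) • fr₁ (C (P₀ i.1)) (S (P₀ i.1))‖ ^ 2 * dens h (V (G i)) =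
        (1 + 2 * κ) ^ 2 * ∑ j, Y j := by
      rw [Finset.sum_congr rfl (fun i _ => hterm i), Fintype.sum_sigma, Finset.mul_sum]
      apply Finset.sum_congr rfl
      intro j _
      rw [hYdef, ← Finset.mul_sum]
      congr 1
      exact Finset.sum_coe_sort (T j) (fun ij =>
        δ ^ 2 * f (gridPt (C (P₀ j)) (S (P₀ j)) (P₀ j) δ ij.1 ij.2))
    simp only [] at hsum ⊢
    rw [hsum]
    -- the pieces
    have hPD : ∀ j, P j ⊆ D := fun j => (hPsub j).trans inter_subset_left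
    have hthickfin : ∀ j, volume (cthickening ρ (P j)) ≠ ∞ :=
      fun j => (hPc j).cthickening.measure_lt_top.ne
    have hPfin : ∀ j, volume (P j) ≠ ∞ := fun j => (hPc j).measure_lt_top.ne
    have hY : ∀ j, Y j ≤ (∫ x in P j, f x) +
        ((volume (cthickening ρ (P j))).toReal - (volume (P j)).toReal) +
        η * (volume (cthickening ρ (P j))).toReal := by
      intro j
      rw [hYdef]
      apply piece_bound hf0 hf1 (P₀ j) (T j) (hCS _ (hP₀D j)) hδ hη (hPD j) (hPc j) hρ0 hρr₀ hK' hintK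
        (fun x hx y hy hxy => hρ₁c x hx y hy hxy) hδ2 (fun ij hij => (hTmem j ij).mp hij) _
        (hCstpos j).le
      exact (hδj j).le.trans (min_le_left _ _)
    have hΔ : ∀ j, (volume (cthickening ρ (P j))).toReal ≤ (volume (P j)).toReal + ε₁ / (J + 1) := by
      intro j
      have h5 := ENNReal.toReal_mono (ENNReal.add_ne_top.mpr ⟨hPfin j, ENNReal.ofReal_ne_top⟩)
        (hρev j).le
      rwa [ENNReal.toReal_add (hPfin j) ENNReal.ofReal_ne_top,
        ENNReal.toReal_ofReal (by positivity)] at h5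
    have hΔ0 : ∀ j, (volume (P j)).toReal ≤ (volume (cthickening ρ (P j))).toReal :=
      fun j => ENNReal.toReal_mono (hthickfin j) (measure_mono (self_subset_cthickening _))
    -- integrals over the pieces
    have hintD : IntegrableOn f D := hintK.mono_set (self_subset_cthickening D)
    have hintE : ∀ j, IntegrableOn f (E j) :=
      fun j => hintD.mono_set ((hEP j).trans (hPD j))
    have hPE : ∀ j, P j =ᵐ[volume] E j := fun j => by
      rw [ae_eq_set]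
      refine ⟨hnull j, ?_⟩
      have hemp : E j \ P j = ∅ := by
        ext x
        simp only [Set.mem_sdiff, Set.mem_empty_iff_false, iff_false, not_and, not_not]
        exact fun h => hEP j h
      rw [hemp]
      exact measure_empty
    have hI : ∑ j, ∫ x in P j, f x = ∫ x in D, f x := by
      rw [← hEU, integral_iUnion_fintype hEm hEd hintE]
      exact Finset.sum_congr rfl (fun j _ => setIntegral_congr_set (hPE j))
    have hV' : ∑ j, (volume (P j)).toReal = Vol := by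
      have h1' : ∫ _x in D, (1 : ℝ) = ∑ j, ∫ _x in E j, (1 : ℝ) := by
        rw [← hEU]
        apply integral_iUnion_fintype hEm hEd
        intro j
        apply integrableOn_const _ (by simp)
        exact ne_top_of_le_ne_top hDfin (measure_mono ((hEP j).trans (hPD j)))
      have h2' : ∀ j, ∫ _x in E j, (1 : ℝ) = (volume (P j)).toReal := by
        intro j
        rw [setIntegral_const, Measure.real, measure_congr (hPE j).symm, smul_eq_mul, mul_one]
      have h3' : ∫ _x in D, (1 : ℝ) = Vol := by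
        rw [setIntegral_const, Measure.real, smul_eq_mul, mul_one, hVoldef]
      rw [← h3', h1']
      exact (Finset.sum_congr rfl (fun j _ => h2' j)).symm
    obtain ⟨D₁, hD₁⟩ : ∃ D₁, D₁ = ∑ j, ((volume (cthickening ρ (P j))).toReal -
        (volume (P j)).toReal) := ⟨_, rfl⟩
    have hD₁0 : 0 ≤ D₁ := by
      rw [hD₁]
      exact Finset.sum_nonneg fun j _ => by linarith [hΔ0 j]
    have hD₁le : D₁ ≤ ε₁ := by
      rw [hD₁]
      calc ∑ j, ((volume (cthickening ρ (P j))).toReal - (volume (P j)).toReal)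
          ≤ ∑ _j : Fin J, ε₁ / (J + 1) :=
            Finset.sum_le_sum fun j _ => by linarith [hΔ j]
        _ = J * (ε₁ / (J + 1)) := by simp
        _ ≤ ε₁ := by
          rw [mul_div_assoc', div_le_iff₀ hJ1]
          nlinarith
    have hYtotal : ∑ j, Y j ≤ (∫ x in D, f x) + D₁ + η * (Vol + D₁) := by
      calc ∑ j, Y j ≤ ∑ j, ((∫ x in P j, f x) +
            ((volume (cthickening ρ (P j))).toReal - (volume (P j)).toReal) +
            η * (volume (cthickening ρ (P j))).toReal) := Finset.sum_le_sum fun j _ => hY j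
        _ = _ := by
          rw [Finset.sum_add_distrib, Finset.sum_add_distrib, hI, ← hD₁, ← Finset.mul_sum]
          congr 2
          rw [hD₁, ← hV', ← Finset.sum_add_distrib]
          exact Finset.sum_congr rfl (fun j _ => by ring)
    have hY0 : 0 ≤ ∑ j, Y j := by
      apply Finset.sum_nonneg
      intro j _
      rw [hYdef]
      apply Finset.sum_nonneg
      intro ij _
      have := hf0 (gridPt (C (P₀ j)) (S (P₀ j)) (P₀ j) δ ij.1 ij.2)
      positivity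
    have hIle : ∫ x in D, f x ≤ Vol := by
      have h8 := setIntegral_le_of_subset (f := f) (A := ∅) (B := D) (empty_subset _)
        MeasurableSet.empty hD.measurableSet hDfin hintD hf1
      simpa [hVoldef] using h8
    have hfinal := final_arith hκ hκ1 hη1 hη hε₁ hε₁1 hε₁8 hηV hκV hVol hIle hY0 hYtotal hD₁le hD₁0 hε
    rw [hf] at hfinal
    exact hfinal

end Crest.Agent.RuledCover
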