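import Crest.Agent.Lib.RuledCover.Pieces

/-!
# Patches on which the vector field is almost affine, and auxiliary lemmas
-/

open scoped RealInnerProductSpace ENNReal Topology
open Set Metric MeasureTheory

namespace Crest.Agent.RuledCover

/-- Around each point the field is almost affine, in a frame where the derivative has no diagonal. -/
theorem exists_patch {V : E2 → E2} {U : Set E2} (hU : IsOpen U) (hV : ContDiffOn ℝ 1 V U)
    {L : ℝ} (hL : 0 < L) {κ : ℝ} (hκ : 0 < κ) {p₀ : E2} (hp₀ : p₀ ∈ U)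
    (htr : LinearMap.trace ℝ _ (fderiv ℝ V p₀).toLinearMap = 0)
    (hdet : -(L ^ 2)⁻¹ < LinearMap.det (fderiv ℝ V p₀).toLinearMap ∧
      LinearMap.det (fderiv ℝ V p₀).toLinearMap ≤ 0) :
    ∃ (C S β γ r : ℝ) (A : E2 →L[ℝ] E2), C ^ 2 + S ^ 2 = 1 ∧ A (fr₁ C S) = γ • fr₂ C S ∧
      A (fr₂ C S) = β • fr₁ C S ∧ 0 ≤ β * γ ∧ L ^ 2 * (β * γ) < 1 ∧ 0 < r ∧
      ball p₀ (3 * r) ⊆ U ∧
      ∀ x ∈ ball p₀ (3 * r), ∀ y ∈ ball p₀ (3 * r),
        ‖V x - V y - A (x - y)‖ ≤ (κ / (L * windowConst L β γ)) * ‖x - y‖ := by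
  obtain ⟨C, S, β, γ, hCS, hA₁, hA₂, hβγ⟩ := exists_frame (fderiv ℝ V p₀).toLinearMap htr
  have h0 : 0 ≤ β * γ := by rw [hβγ]; linarith [hdet.2]
  have hL2 : 0 < L ^ 2 := by positivity
  have h1 : L ^ 2 * (β * γ) < 1 := by
    rw [hβγ]
    have h2 := hdet.1
    have h3 : - LinearMap.det (fderiv ℝ V p₀).toLinearMap < (L ^ 2)⁻¹ := by linarith
    calc L ^ 2 * - LinearMap.det (fderiv ℝ V p₀).toLinearMap < L ^ 2 * (L ^ 2)⁻¹ :=
          mul_lt_mul_of_pos_left h3 hL2
      _ = 1 := mul_inv_cancel₀ hL2.ne'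
  have hCst := windowConst_pos hL h1
  set ω := κ / (L * windowConst L β γ) with hω
  have hωpos : 0 < ω := by positivity
  set A := fderiv ℝ V p₀ with hA
  have hfc : ContinuousOn (fderiv ℝ V) U := hV.continuousOn_fderiv_of_isOpen hU (by norm_num)
  obtain ⟨r₁, hr₁, hr₁U⟩ := Metric.isOpen_iff.mp hU p₀ hp₀
  obtain ⟨r₂, hr₂, hr₂c⟩ := Metric.continuousOn_iff.mp hfc p₀ hp₀ ω hωpos
  refine ⟨C, S, β, γ, min r₁ r₂ / 3, A, hCS, hA₁, hA₂, h0, h1, by positivity, ?_, ?_⟩
  · apply (ball_subset_ball _).trans hr₁U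
    have := min_le_left r₁ r₂
    linarith
  · have hball : ball p₀ (3 * (min r₁ r₂ / 3)) = ball p₀ (min r₁ r₂) := by
      congr 1; ring
    rw [hball]
    have hsub : ball p₀ (min r₁ r₂) ⊆ U :=
      (ball_subset_ball (min_le_left _ _)).trans hr₁U
    intro x hx y hy
    have hd : ∀ z ∈ ball p₀ (min r₁ r₂),
        HasFDerivWithinAt (fun z => V z - A z) (fderiv ℝ V z - A) (ball p₀ (min r₁ r₂)) z := by
      intro z hz
      have hdz : DifferentiableAt ℝ V z :=
        (hV.contDiffAt (hU.mem_nhds (hsub hz))).differentiableAt (by norm_num)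
      exact (hdz.hasFDerivAt.sub A.hasFDerivAt).hasFDerivWithinAt
    have hb : ∀ z ∈ ball p₀ (min r₁ r₂), ‖fderiv ℝ V z - A‖ ≤ ω := by
      intro z hz
      have h4 : dist z p₀ < r₂ := lt_of_lt_of_le (mem_ball.mp hz) (min_le_right _ _)
      have h5 := hr₂c z (hsub hz) h4
      rw [dist_eq_norm] at h5
      exact h5.le
    have key := (convex_ball p₀ (min r₁ r₂)).norm_image_sub_le_of_norm_hasFDerivWithin_le hd hb hy hx
    have e : V x - V y - A (x - y) = (V x - A x) - (V y - A y) := by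
      rw [map_sub]; abel
    rw [e]
    exact key

/-- Only finitely many grid points are near a bounded set. -/
theorem finite_window {C S : ℝ} (hCS : C ^ 2 + S ^ 2 = 1) (q : E2) {δ : ℝ} (hδ : 0 < δ)
    {P : Set E2} (hP : Bornology.IsBounded P) (R : ℝ) :
    {ij : ℤ × ℤ | ∃ p ∈ P, ‖p - gridPt C S q δ ij.1 ij.2‖ ≤ R}.Finite := by
  obtain ⟨R₀, hR₀⟩ := hP.subset_closedBall q
  set R₁ := R₀ + R with hR₁
  set N : ℤ := ⌈R₁ / δ⌉ with hN
  apply Set.Finite.subset ((Set.finite_Icc (-N) N).prod (Set.finite_Icc (-N) N))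
  rintro ⟨m, n⟩ ⟨p, hp, hpd⟩
  simp only at hpd
  have hq : ‖gridPt C S q δ m n - q‖ ≤ R₁ := by
    have h1 : ‖p - q‖ ≤ R₀ := by simpa [dist_eq_norm] using hR₀ hp
    calc ‖gridPt C S q δ m n - q‖ = ‖(p - q) - (p - gridPt C S q δ m n)‖ := by
          congr 1; abel
      _ ≤ ‖p - q‖ + ‖p - gridPt C S q δ m n‖ := norm_sub_le _ _
      _ ≤ R₁ := by rw [hR₁]; linarith
  have hg : gridPt C S q δ m n - q = (δ * m) • fr₁ C S + (δ * n) • fr₂ C S := by
    rw [gridPt]; abel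
  have h2 : |δ * m| ≤ R₁ := by
    have h3 := abs_real_inner_le_norm (gridPt C S q δ m n - q) (fr₁ C S)
    rw [norm_fr₁ hCS, mul_one] at h3
    rw [hg, inner_frame_combo₁ hCS, ← hg] at h3
    exact h3.trans hq
  have h4 : |δ * n| ≤ R₁ := by
    have h3 := abs_real_inner_le_norm (gridPt C S q δ m n - q) (fr₂ C S)
    rw [norm_fr₂ hCS, mul_one] at h3
    rw [hg, inner_frame_combo₂ hCS, ← hg] at h3
    exact h3.trans hq
  have key : ∀ a : ℤ, |δ * a| ≤ R₁ → a ∈ Icc (-N) N := by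
    intro a ha
    rw [abs_mul, abs_of_pos hδ] at ha
    have h5 : |(a : ℝ)| ≤ R₁ / δ := by
      rw [le_div_iff₀ hδ]; linarith
    have h6 : R₁ / δ ≤ (N : ℝ) := Int.le_ceil _
    have h7 := abs_le.mp (h5.trans h6)
    constructor
    · have : ((-N : ℤ) : ℝ) ≤ a := by push_cast; exact h7.1
      exact_mod_cast this
    · exact_mod_cast h7.2
  exact ⟨key m h2, key n h4⟩

/-- Comparing integrals of a function bounded by one over nested sets. -/
theorem setIntegral_le_of_subset {f : E2 → ℝ} {A B : Set E2} (hAB : A ⊆ B)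
    (hA : MeasurableSet A) (hBm : MeasurableSet B) (hB : volume B ≠ ∞)
    (hf : IntegrableOn f B) (hf1 : ∀ x, f x ≤ 1) :
    ∫ x in B, f x ≤ (∫ x in A, f x) + ((volume B).toReal - (volume A).toReal) := by
  have hAfin : volume A ≠ ∞ := ne_top_of_le_ne_top hB (measure_mono hAB)
  have h1 : ∫ x in B \ A, f x = (∫ x in B, f x) - ∫ x in A, f x := setIntegral_sdiff hA hf hAB
  have hdiff : volume (B \ A) = volume B - volume A :=
    measure_sdiff hAB hA.nullMeasurableSet hAfin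
  have hdfin : volume (B \ A) ≠ ∞ := ne_top_of_le_ne_top hB (measure_mono sdiff_subset)
  have h2 : ∫ x in B \ A, f x ≤ ∫ _x in B \ A, (1 : ℝ) := by
    apply setIntegral_mono_on (hf.mono_set sdiff_subset)
      (integrableOn_const hdfin (by simp)) (hBm.diff hA)
    exact fun x _ => hf1 x
  have h3 : ∫ _x in B \ A, (1 : ℝ) = (volume B).toReal - (volume A).toReal := by
    rw [setIntegral_const, Measure.real, hdiff, ENNReal.toReal_sub_of_le (measure_mono hAB) hB,
      smul_eq_mul, mul_one]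
  linarith

end Crest.Agent.RuledCover
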