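import Crest.Agent.Lib.RuledCover.Riemann

/-!
# Cutting a compact set along finitely many balls
-/

open scoped RealInnerProductSpace ENNReal Topology
open Set Metric MeasureTheory

namespace Crest.Agent.RuledCover

/-- Cutting a compact set along finitely many balls. -/
theorem exists_pieces {D : Set E2} (hD : IsCompact D) {J : ℕ} (p : Fin J → E2) (r : Fin J → ℝ)
    (hcover : D ⊆ ⋃ j, ball (p j) (r j)) :
    ∃ (P E : Fin J → Set E2), (∀ j, IsCompact (P j)) ∧ (∀ j, P j ⊆ D ∩ closedBall (p j) (r j)) ∧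
      (∀ j, E j ⊆ P j) ∧ (∀ j, MeasurableSet (E j)) ∧ (Pairwise (Function.onFun Disjoint E)) ∧
      (⋃ j, E j) = D ∧ (∀ j, volume (P j \ E j) = 0) := by
  refine ⟨fun j => (D ∩ closedBall (p j) (r j)) \ ⋃ k : {k : Fin J // k < j}, ball (p k) (r k),
    fun j => (D ∩ ball (p j) (r j)) \ ⋃ k : {k : Fin J // k < j}, ball (p k) (r k), ?_, ?_, ?_, ?_,
    ?_, ?_, ?_⟩
  · intro j
    exact (hD.inter_right isClosed_closedBall).diff (isOpen_iUnion fun _ => isOpen_ball)
  · intro j
    exact sdiff_subset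
  · intro j
    exact sdiff_subset_sdiff_left (inter_subset_inter_right _ ball_subset_closedBall)
  · intro j
    exact (hD.measurableSet.inter measurableSet_ball).diff
      (isOpen_iUnion fun _ => isOpen_ball).measurableSet
  · intro j k hjk
    wlog hlt : k < j generalizing j k
    · have hkj : j < k := lt_of_le_of_ne (not_lt.mp hlt) hjk
      exact (this hjk.symm hkj).symm
    simp only [Function.onFun]
    rw [Set.disjoint_left]
    rintro x ⟨_, hx⟩ ⟨⟨_, hxk⟩, _⟩
    exact hx (mem_iUnion.mpr ⟨⟨k, hlt⟩, hxk⟩)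
  · apply Subset.antisymm
    · exact iUnion_subset fun j => sdiff_subset.trans inter_subset_left
    · intro x hx
      have hne : {j : Fin J | x ∈ ball (p j) (r j)}.Nonempty := by
        obtain ⟨j, hj⟩ := mem_iUnion.mp (hcover hx)
        exact ⟨j, hj⟩
      obtain ⟨j, hj, hmin⟩ := wellFounded_lt.has_min _ hne
      refine mem_iUnion.mpr ⟨j, ⟨hx, hj⟩, ?_⟩
      intro hmem
      obtain ⟨⟨k, hk⟩, hxk⟩ := mem_iUnion.mp hmem
      exact hmin k hxk hk
  · intro j
    apply measure_mono_null _ (Measure.addHaar_sphere (μ := volume) (p j) (r j))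
    rintro x ⟨⟨⟨hxD, hxb⟩, hxk⟩, hxE⟩
    rw [mem_sphere]
    by_contra hne
    apply hxE
    refine ⟨⟨hxD, ?_⟩, hxk⟩
    rw [mem_ball]
    exact lt_of_le_of_ne (mem_closedBall.mp hxb) hne

end Crest.Agent.RuledCover
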