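import Crest.Agent.Lib.RuledCover.Cells

/-!
# Riemann sums over grid cells
-/

open scoped RealInnerProductSpace ENNReal Topology
open Set Metric MeasureTheory

namespace Crest.Agent.RuledCover

/-- Comparing a Riemann sum over a finite set of grid points with an integral over a thickening. -/
theorem sum_le_integral_thick {C S : ℝ} (hCS : C ^ 2 + S ^ 2 = 1) (q : E2) {δ : ℝ} (hδ : 0 < δ)
    (P : Set E2) {ρ η Cst : ℝ} (f : E2 → ℝ) (T : Finset (ℤ × ℤ))
    (hT : ∀ ij ∈ T, ∃ p ∈ P, ‖p - gridPt C S q δ ij.1 ij.2‖ ≤ Cst * δ)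
    (hρ : (Cst + 2) * δ ≤ ρ)
    (hfin : volume (cthickening ρ P) ≠ ∞)
    (hint : IntegrableOn f (cthickening ρ P))
    (hosc : ∀ ij ∈ T, ∀ x ∈ cell C S q δ ij.1 ij.2, f (gridPt C S q δ ij.1 ij.2) ≤ f x + η)
    (hnn : ∀ x ∈ cthickening ρ P, 0 ≤ f x + η) :
    ∑ ij ∈ T, δ ^ 2 * f (gridPt C S q δ ij.1 ij.2) ≤ ∫ x in cthickening ρ P, (f x + η) := by
  have hsub : ∀ ij ∈ T, cell C S q δ ij.1 ij.2 ⊆ cthickening ρ P := by
    intro ij hij x hx
    obtain ⟨p, hp, hpd⟩ := hT ij hij
    have h1 := cell_dist hCS q hδ hx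
    have h2 : dist x p ≤ ρ := by
      rw [dist_eq_norm]
      calc ‖x - p‖ = ‖(x - gridPt C S q δ ij.1 ij.2) - (p - gridPt C S q δ ij.1 ij.2)‖ := by
            congr 1; abel
        _ ≤ ‖x - gridPt C S q δ ij.1 ij.2‖ + ‖p - gridPt C S q δ ij.1 ij.2‖ := norm_sub_le _ _
        _ ≤ 2 * δ + Cst * δ := add_le_add h1 hpd
        _ = (Cst + 2) * δ := by ring
        _ ≤ ρ := hρ
    exact mem_cthickening_of_dist_le x p ρ P hp h2
  have hintg : IntegrableOn (fun x => f x + η) (cthickening ρ P) := by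
    apply hint.add
    exact integrableOn_const hfin (by simp)
  have hstep : ∀ ij ∈ T, δ ^ 2 * f (gridPt C S q δ ij.1 ij.2) ≤
      ∫ x in cell C S q δ ij.1 ij.2, (f x + η) := by
    intro ij hij
    have hmeas := measurableSet_cell C S q δ ij.1 ij.2
    have hvol := volume_cell hCS q hδ ij.1 ij.2
    have hconst : ∫ _x in cell C S q δ ij.1 ij.2, f (gridPt C S q δ ij.1 ij.2) =
        δ ^ 2 * f (gridPt C S q δ ij.1 ij.2) := by
      rw [setIntegral_const, Measure.real, hvol, ENNReal.toReal_ofReal (by positivity), smul_eq_mul]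
    rw [← hconst]
    apply setIntegral_mono_on
    · exact integrableOn_const (by rw [hvol]; exact ENNReal.ofReal_ne_top) (by simp)
    · exact hintg.mono_set (hsub ij hij)
    · exact hmeas
    · exact hosc ij hij
  calc ∑ ij ∈ T, δ ^ 2 * f (gridPt C S q δ ij.1 ij.2)
      ≤ ∑ ij ∈ T, ∫ x in cell C S q δ ij.1 ij.2, (f x + η) := Finset.sum_le_sum hstep
    _ = ∫ x in ⋃ ij ∈ T, cell C S q δ ij.1 ij.2, (f x + η) := by
        rw [integral_biUnion_finset]
        · exact fun ij _ => measurableSet_cell C S q δ ij.1 ij.2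
        · intro ij _ ij' _ hne
          exact cell_disjoint C S q hδ (by simpa using hne)
        · exact fun ij hij => hintg.mono_set (hsub ij hij)
    _ ≤ ∫ x in cthickening ρ P, (f x + η) := by
        apply setIntegral_mono_set hintg
        · filter_upwards [ae_restrict_mem isClosed_cthickening.measurableSet] with x hx using hnn x hx
        · exact (Set.iUnion₂_subset hsub).eventuallyLE

end Crest.Agent.RuledCover
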